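import Mathlib

namespace Vale.Agent.P200F

open MvPolynomial Module

variable {K : Type*} [Field K] {n : ℕ}

/-- The part of degree `j` of the `p`-th term of the Koszul complex of `x_1, …, x_n` on `S / I`:
families `c` of elements of `S / I` indexed by the sets `s` of variables, such that `c s` is the
class of a form of degree `j - p` if `s` has `p` elements, and zero otherwise. -/
def koszulTerm (I : Ideal (MvPolynomial (Fin n) K)) (p j : ℕ) :
    Set (Finset (Fin n) → MvPolynomial (Fin n) K ⧸ I) :=
  {c | ∀ s, c s = 0 ∨ s.card = p ∧ ∃ d g, p + d = j ∧ g.IsHomogeneous d ∧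
    Ideal.Quotient.mk I g = c s}

/-- the Koszul differential `(∂ c)_t = ∑_{i ∉ t} (-1)^{#{k ∈ t : k < i}} x_i c_{t ∪ i}` -/
noncomputable def koszulDiff (I : Ideal (MvPolynomial (Fin n) K))
    (c : Finset (Fin n) → MvPolynomial (Fin n) K ⧸ I) (t : Finset (Fin n)) :
    MvPolynomial (Fin n) K ⧸ I :=
  ∑ i ∈ tᶜ, Ideal.Quotient.mk I ((-1) ^ (t.filter fun k => k < i).card * X i) * c (insert i t)

/-- The graded Betti number `β_{p,j}(S / I) = dim Tor_p(S / I, K)_j`: in the degree `j` part of
the Koszul complex, the dimension of the cycles minus that of the boundaries. -/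
noncomputable def bettiNumber (I : Ideal (MvPolynomial (Fin n) K)) (p j : ℕ) : ℕ :=
  Set.finrank K {c | c ∈ koszulTerm I p j ∧ koszulDiff I c = 0} -
    Set.finrank K (koszulDiff I '' koszulTerm I (p + 1) j)

end Vale.Agent.P200F
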